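import Vale.Agent.P216.V1.W3
import Vale.Agent.P216.H285V.Germ

/-!
# P216-V: closed forms of degree zero are constant on chain connected sets, at one scale
-/

set_option linter.unusedSectionVars false
set_option linter.unusedVariables false
set_option linter.all false

open Set Filter Topology
open scoped ContDiff

namespace Vale.Agent.P216.H961

open Vale.Agent.P231.Fm Vale.Agent.P231.WA Vale.Agent.P216.V1 Vale.Agent.P216.V1.Wc
open Vale.Agent.P216.H285V

noncomputable section

variable {E : Type} [PseudoMetricSpace E] {X : Set E} {ε : ℝ}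

theorem algebraMap_val {V : Type} [NormedAddCommGroup V] [NormedSpace ℝ V]
    [FiniteDimensional ℝ V] {Y : Type*} {D : Dif Y} (r : ℝ) {u : V → Y} {s : V} (h : D.At u s) :
    (algebraMap ℝ (Form D) r).val u s = algebraMap ℝ (Lam V) r := by
  rw [Algebra.algebraMap_eq_smul_one, Form.smul_val, Form.one_val h,
    Algebra.algebraMap_eq_smul_one]

theorem W_zero_const {c : List E → ℝ} {r : ℝ} (hc : ∀ x ∈ X, c [x] = r) :
    W X ε 0 c = algebraMap ℝ (Form (DM X ε)) r :=
  Form.ext_val fun V _ _ _ u s hu => by
    obtain ⟨F, hF⟩ := id hu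
    have h0 : Supp (id : E → E) (id : E → E) X X ε F (fun y => (u y, ([] : List E))) s :=
      ⟨hF.smF, ⟨by simp, by simp⟩, by simp, Eventually.of_forall fun _ => rfl, hF.out, hF.sum,
        hF.sm⟩
    rw [algebraMap_val r hu, W_apply, sW_zero, one_smul, em_val _ hu, AA, RR_zero,
      S_val _ _ h0]
    have e1 : ∀ x ∈ F, ((fun y => (u y, ([] : List E))) s : MP E E).1 x •
        (cst c : Form (DA X ε)).val (fun y => (((fun y => (u y, ([] : List E))) y : MP E E).1,
          (id x : E) :: ((fun y => (u y, ([] : List E))) s : MP E E).2)) s =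
        u s x • algebraMap ℝ (Lam V) r := by
      intro x hx
      have h1 : Supp (id : E → E) (id : E → E) X X ε F (fun y => (u y, [x])) s := by
        refine ⟨hF.smF, ⟨?_, ?_⟩, ?_, Eventually.of_forall fun _ => rfl, hF.out, hF.sum, hF.sm⟩
        · intro z hz
          rw [List.mem_singleton.1 hz]
          exact hF.smF.1 x hx
        · intro z hz z' hz'
          rw [List.mem_singleton.1 hz, List.mem_singleton.1 hz']
          exact hF.smF.2 x hx x hx
        · intro z hz z' hz'
          rw [List.mem_singleton.1 hz]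
          exact hF.smF.2 x hx z' hz'
      have h2 := cst_val (X := X) (ε := ε) (π := (id : E → E)) (ρ := (id : E → E)) (A := X) c h1
      change u s x • (cst c : Form (DA X ε)).val (fun y => (u y, [x])) s = _
      rw [h2]
      change u s x • algebraMap ℝ (Lam V) (c [x]) = _
      rw [hc x (hF.smF.1 x hx)]
    rw [Finset.sum_congr rfl e1, ← Finset.sum_smul, hF.sum.self_of_nhds, one_smul]

/-- **closed forms of degree zero are constant**, if `X` is `ε`-chain connected -/
theorem const0_of (hX : ∀ x ∈ X, ∀ y ∈ X,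
      Relation.ReflTransGen (fun a b => a ∈ X ∧ b ∈ X ∧ dist a b < ε) x y)
    {η : Form (DM X ε)} (hη : Form.IsDeg 0 η) (hd : η.d = 0) :
    ∃ r : ℝ, η = algebraMap ℝ (Form (DM X ε)) r := by
  obtain ⟨f, hf, β, hβ, -, h⟩ := W_surj hη hd
  rw [hβ rfl, Form.d_zero, add_zero] at h
  rcases X.eq_empty_or_nonempty with h0 | ⟨x₀, hx₀⟩
  · refine ⟨0, ?_⟩
    rw [h]
    refine W_zero_const fun x hx => ?_
    rw [h0] at hx
    exact absurd hx (Set.notMem_empty x)
  · refine ⟨f [x₀], ?_⟩
    rw [h]
    refine W_zero_const fun x hx => ?_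
    have key : ∀ y, Relation.ReflTransGen (fun a b => a ∈ X ∧ b ∈ X ∧ dist a b < ε) x₀ y →
        f [y] = f [x₀] := by
      intro y hy
      induction hy with
      | refl => rfl
      | tail _ hyz ih =>
        rename_i y z _
        obtain ⟨hy, hz, hyz⟩ := hyz
        have hε : 0 < ε := dist_nonneg.trans_lt hyz
        have h1 := hf [y, z] rfl ⟨by simp [hy, hz], by
          intro a ha b hb
          simp only [List.mem_cons, List.not_mem_nil, or_false] at ha hb
          rcases ha with rfl | rfl <;> rcases hb with rfl | rfl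
          · rwa [dist_self]
          · exact hyz
          · rwa [dist_comm]
          · rwa [dist_self]⟩
        rw [← bl_eq_dl, bl_cons, bl_cons, bl_nil, sub_zero, sub_eq_zero] at h1
        rw [h1, ih]
    exact key x (hX x₀ hx₀ x hx)

theorem chain_univ [PreconnectedSpace E] (hε : 0 < ε) (x y : E) :
    Relation.ReflTransGen (fun a b : E => a ∈ (univ : Set E) ∧ b ∈ (univ : Set E) ∧ dist a b < ε)
      x y := by
  set R := fun a b : E => a ∈ (univ : Set E) ∧ b ∈ (univ : Set E) ∧ dist a b < ε with hR
  have h1 : IsOpen {z | Relation.ReflTransGen R x z} := by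
    rw [Metric.isOpen_iff]
    intro z hz
    refine ⟨ε, hε, fun w hw => Relation.ReflTransGen.tail hz ⟨mem_univ _, mem_univ _, ?_⟩⟩
    rw [dist_comm]
    exact hw
  have h2 : IsClosed {z | Relation.ReflTransGen R x z} := by
    rw [← isOpen_compl_iff, Metric.isOpen_iff]
    intro z hz
    refine ⟨ε, hε, fun w hw hxw => hz ?_⟩
    exact Relation.ReflTransGen.tail hxw ⟨mem_univ _, mem_univ _, hw⟩
  have h3 : {z | Relation.ReflTransGen R x z} = univ :=
    IsClopen.eq_univ ⟨h2, h1⟩ ⟨x, Relation.ReflTransGen.refl⟩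
  have h4 : y ∈ {z | Relation.ReflTransGen R x z} := by
    rw [h3]
    exact mem_univ y
  exact h4

/-- **closed forms of degree zero on a connected space are constant, at every scale** -/
theorem const0 [PreconnectedSpace E] (hε : 0 < ε) {η : Form (DM (univ : Set E) ε)}
    (hη : Form.IsDeg 0 η) (hd : η.d = 0) :
    ∃ r : ℝ, η = algebraMap ℝ (Form (DM (univ : Set E) ε)) r :=
  const0_of (fun x _ y _ => chain_univ hε x y) hη hd

/-- the same in the dga at one scale -/
theorem fC_Z_zero [PreconnectedSpace E] (hε : 0 < ε) {a : Form (DM (univ : Set E) ε)}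
    (ha : a ∈ (fC (DM (univ : Set E) ε)).Z 0) :
    ∃ r : ℝ, a = algebraMap ℝ (Form (DM (univ : Set E) ε)) r :=
  const0 hε ha.1 ha.2

/-- a constant form which vanishes at one plot is zero -/
theorem algebraMap_eq_zero_of_val {V : Type} [NormedAddCommGroup V] [NormedSpace ℝ V]
    [FiniteDimensional ℝ V] {Y : Type*} {D : Dif Y} {r : ℝ} {u : V → Y} {s : V} (h : D.At u s)
    (h0 : aug ((algebraMap ℝ (Form D) r).val u s) = 0) : r = 0 := by
  rw [algebraMap_val r h] at h0
  exact (AlgHom.commutes aug r).symm.trans h0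

end

end Vale.Agent.P216.H961
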