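import Vale.Agent.P216.H961.Va
import Vale.Agent.P216.H929V.HBase
import Vale.Agent.P216.H923G.Abs

/-!
# P216-V, F-O': the filtration of the hybrid dga and the dual classes in it

`LF n`: no list of length `> n`. `fil`: the structure `Fil` of (F) at one scale. `VaN K a`: the dual
class as an element of `HT`; `VaN_deg`, `VaN_L`, `dVaN_L` are the fields `V_deg`, `V_L`, `dV_L` of
`PushD`.
-/

set_option linter.unusedSectionVars false
set_option linter.unusedVariables false
set_option linter.all false

open Set Filter Topology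
open scoped ContDiff

namespace Vale.Agent.P216.H961

open Vale.Agent.P231.Fm Vale.Agent.P231.WA Vale.Agent.P216.V1 Vale.Agent.P216.H923G
open Vale.Agent.P216.H929V Vale.Agent.P216.V609

noncomputable section

section

variable {E M N : Type} [PseudoMetricSpace E] [PseudoMetricSpace M] [PseudoMetricSpace N]
variable {π : E → N} {ρ : M → N} {A : Set M} {X : Set E} {ε : ℝ}

variable (π ρ A X ε) in
/-- no list of length `> n` -/
def LF (n : ℕ) : Submodule ℝ (HT π ρ A X ε) where
  carrier := {a | ∀ p, n < p → len p a.val = 0}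
  add_mem' := fun {a b} ha hb p hp => by
    change len p (a.val + b.val) = 0
    rw [len_add, ha p hp, hb p hp, add_zero]
  zero_mem' := fun p _ => len_zero p
  smul_mem' := fun c a ha p hp => by
    change len p (c • a.val) = 0
    rw [len_smul, ha p hp, smul_zero]

theorem mem_LF {n : ℕ} {a : HT π ρ A X ε} :
    a ∈ LF π ρ A X ε n ↔ ∀ p, n < p → len p a.val = 0 := Iff.rfl

theorem LF_zero : LF π ρ A X ε 0 = ⊥ := by
  refine le_antisymm (fun a ha => ?_) bot_le
  rw [Submodule.mem_bot]
  refine HT.ext (ext_len fun p => ?_)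
  rw [HT.val_zero, len_zero]
  rcases Nat.eq_zero_or_pos p with rfl | hp
  · exact a.len_val'
  · exact ha p hp

theorem LF_mono : Monotone (LF π ρ A X ε) := fun m n hmn a ha p hp =>
  ha p (lt_of_le_of_lt hmn hp)

theorem deg_le_LF (m : ℕ) : (hN π ρ A X ε).deg m ≤ LF π ρ A X ε (m + 1) :=
  fun a ha p hp => TDg.top ha p hp

theorem sg_mem_LF {n : ℕ} {a : HT π ρ A X ε} (ha : a ∈ LF π ρ A X ε n) :
    (hN π ρ A X ε).sg a ∈ LF π ρ A X ε n := fun p hp => by
  have h1 := ha p hp
  rw [hN_sg, tau, len_neg, len_sc]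
  have h2 : len p (Form.sg a.val) = (len p a.val).sg := (sg_sc (ind p) a.val).symm
  rw [h2, h1, Form.sg_zero, sc_zero, neg_zero]

/-- multiplication with a base form from the right -/
theorem val_mul_iC (a : HT π ρ A X ε) (b : Form (DM X ε)) :
    (a * (iC π ρ A X ε).f b).val = a.val * pf b := star_base a.len_val' b

theorem mul_mem_LF {n : ℕ} {a : HT π ρ A X ε} (ha : a ∈ LF π ρ A X ε n) (b : Form (DM X ε)) :
    a * (iC π ρ A X ε).f b ∈ LF π ρ A X ε n := fun p hp => by
  rw [val_mul_iC, len_mul_right, ha p hp, zero_mul]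

variable (π ρ A X ε) in
/-- **the filtration by the length of the lists** -/
theorem fil : Fil (iC π ρ A X ε) (LF π ρ A X ε) where
  zero := LF_zero
  mono := LF_mono
  deg_le := deg_le_LF
  sg := sg_mem_LF
  mul ha b := mul_mem_LF ha b

end

variable {M E : Type} [PseudoMetricSpace M] [PseudoMetricSpace E]
variable {π : E → M} {X Y : Set E} {ε δ : ℝ} {q : ℕ} {A : Type} [Fintype A]
variable (K : KD π X Y ε δ q A) (a : A)

/-- the dual class in the hybrid dga -/
def VaN : HT (id : M → M) π Y Set.univ δ := HT.mk δ (Va K a) (tdg_Va K a).zero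

@[simp] theorem VaN_val : (VaN K a).val = Va K a := rfl

theorem VaN_deg : VaN K a ∈ (hN (id : M → M) π Y Set.univ δ).deg q := tdg_Va K a

theorem VaN_L : VaN K a ∈ LF (id : M → M) π Y Set.univ δ (q + 1) :=
  fun p hp => len_Va_of_lt K a hp

theorem dVaN_L : (hN (id : M → M) π Y Set.univ δ).d (VaN K a) ∈
    LF (id : M → M) π Y Set.univ δ q := fun p hp => by
  rw [hN_d, len_neg, VaN_val, len_D_Va_of_lt K a hp, neg_zero]

/-- the part of `VaN K a * b` on the lists of length `q + 1` -/
theorem len_VaN_mul (b : Form (DM (Set.univ : Set M) δ)) :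
    len (q + 1) (VaN K a * (iC (id : M → M) π Y Set.univ δ).f b).val = vf K a * pf b := by
  rw [val_mul_iC, len_mul_right, VaN_val, len_succ_Va]

end

end Vale.Agent.P216.H961
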