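import Vale.Agent.P231.Fm.Dif2
import Vale.Agent.P231.WA.Deg

/-!
# P216-V, V1: locally finite sums of forms on diffeological spaces
-/

set_option linter.unusedSectionVars false
set_option linter.unusedVariables false
set_option linter.all false

open MeasureTheory Set Module Filter Topology
open scoped ContDiff

namespace Vale.Agent.P231.Fm.Form

variable {ι κ : Type*} {X Y : Type*} {D : Dif X} {D' : Dif Y}

/-- a locally finite family of forms -/
def LF (b : ι → Form D) : Prop :=
  ∀ {E : Type} [NormedAddCommGroup E] [NormedSpace ℝ E] [FiniteDimensional ℝ E]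
    {u : E → X} {x : E}, D.At u x → ∃ F : Finset ι, ∀ᶠ y in 𝓝 x, ∀ i, i ∉ F → (b i).val u y = 0

section

variable {E : Type} [NormedAddCommGroup E] [NormedSpace ℝ E] [FiniteDimensional ℝ E]

theorem LF.fin {b : ι → Form D} (hb : LF b) {u : E → X} {x : E} (h : D.At u x) :
    {i | (b i).val u x ≠ 0}.Finite := by
  obtain ⟨F, hF⟩ := hb h
  refine F.finite_toSet.subset fun i hi => ?_
  by_contra hn
  exact hi (hF.self_of_nhds i hn)

theorem finsum_eq_of {b : ι → Form D} {u : E → X} {x : E} {F : Finset ι}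
    (hF : ∀ i, i ∉ F → (b i).val u x = 0) : ∑ᶠ i, (b i).val u x = ∑ i ∈ F, (b i).val u x :=
  finsum_eq_sum_of_support_subset _ fun i hi => by
    by_contra hn
    exact hi (hF i hn)

end

/-- the sum of a locally finite family -/
noncomputable def lsum (b : ι → Form D) (hb : LF b) : Form D :=
  mk' (fun u x => ∑ᶠ i, (b i).val u x)
    (fun {E} _ _ _ {u x} h => by
      obtain ⟨F, hF⟩ := hb h
      have h1 : (fun y => ∑ᶠ i, (b i).val u y) =ᶠ[𝓝 x] fun y => ∑ i ∈ F, (b i).val u y := by
        filter_upwards [hF] with y hy using finsum_eq_of hy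
      exact (ContDiffAt.sum fun i _ => (b i).smooth h).congr_of_eventuallyEq h1)
    (fun {E F} _ _ _ _ _ _ {u g x} h hg => by
      obtain ⟨S, hS⟩ := hb h
      have h2 : ∀ i, i ∉ S → (b i).val (u ∘ g) x = 0 := fun i hi => by
        rw [(b i).nat h hg, hS.self_of_nhds i hi, map_zero]
      rw [finsum_eq_of (hS.self_of_nhds), finsum_eq_of h2, map_sum]
      exact Finset.sum_congr rfl fun i _ => (b i).nat h hg)
    (fun {E} _ _ _ {u v x} h huv => finsum_congr fun i => (b i).congr h huv)

section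

variable {E : Type} [NormedAddCommGroup E] [NormedSpace ℝ E] [FiniteDimensional ℝ E]

theorem lsum_val {b : ι → Form D} (hb : LF b) {u : E → X} {x : E} (h : D.At u x) :
    (lsum b hb).val u x = ∑ᶠ i, (b i).val u x := mk'_val (D := D) h

theorem lsum_val_eq {b : ι → Form D} (hb : LF b) {u : E → X} {x : E} (h : D.At u x)
    {F : Finset ι} (hF : ∀ i, i ∉ F → (b i).val u x = 0) :
    (lsum b hb).val u x = ∑ i ∈ F, (b i).val u x := by
  rw [lsum_val hb h, finsum_eq_of hF]

/-- to prove an identity of forms at a plot one may use a finite set of indices near the point -/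
theorem LF.ev {b : ι → Form D} (hb : LF b) {u : E → X} {x : E} (h : D.At u x) :
    ∃ F : Finset ι, (∀ᶠ y in 𝓝 x, ∀ i, i ∉ F → (b i).val u y = 0) ∧
      (lsum b hb).val u =ᶠ[𝓝 x] fun y => ∑ i ∈ F, (b i).val u y := by
  obtain ⟨F, hF⟩ := hb h
  refine ⟨F, hF, ?_⟩
  filter_upwards [hF, D.open' h] with y hy hy' using lsum_val_eq hb hy' hy

end

theorem LF.d {b : ι → Form D} (hb : LF b) : LF fun i => (b i).d := by
  intro E _ _ _ u x h
  obtain ⟨F, hF⟩ := hb h
  refine ⟨F, ?_⟩
  filter_upwards [hF.eventually_nhds, D.open' h] with y hy hy' i hi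
  rw [d_val _ hy']
  have h1 : (b i).val u =ᶠ[𝓝 y] fun _ => 0 := by
    filter_upwards [hy] with z hz using hz i hi
  rw [extd_congr h1, extd_const]

theorem d_lsum {b : ι → Form D} (hb : LF b) : (lsum b hb).d = lsum (fun i => (b i).d) hb.d :=
  ext_val fun E _ _ _ u x h => by
    obtain ⟨F, hF, hF2⟩ := hb.ev h
    have h1 : ∀ i, i ∉ F → ((b i).d).val u x = 0 := fun i hi => by
      rw [d_val _ h]
      have h1 : (b i).val u =ᶠ[𝓝 x] fun _ => 0 := by
        filter_upwards [hF] with z hz using hz i hi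
      rw [extd_congr h1, extd_const]
    rw [d_val _ h, extd_congr hF2, extd_sum F fun i _ => (b i).differentiableAt h,
      lsum_val_eq hb.d h h1]
    exact Finset.sum_congr rfl fun i _ => (d_val _ h).symm

theorem LF.mul_left {b : ι → Form D} (hb : LF b) (a : ι → Form D) : LF fun i => a i * b i := by
  intro E _ _ _ u x h
  obtain ⟨F, hF⟩ := hb h
  refine ⟨F, ?_⟩
  filter_upwards [hF] with y hy i hi
  rw [mul_val, hy i hi, mul_zero]

theorem LF.mul_right {b : ι → Form D} (hb : LF b) (a : ι → Form D) : LF fun i => b i * a i := by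
  intro E _ _ _ u x h
  obtain ⟨F, hF⟩ := hb h
  refine ⟨F, ?_⟩
  filter_upwards [hF] with y hy i hi
  rw [mul_val, hy i hi, zero_mul]

theorem mul_lsum (a : Form D) {b : ι → Form D} (hb : LF b) :
    a * lsum b hb = lsum (fun i => a * b i) (hb.mul_left fun _ => a) :=
  ext_val fun E _ _ _ u x h => by
    obtain ⟨F, hF⟩ := hb h
    have h0 := hF.self_of_nhds
    rw [mul_val, lsum_val_eq hb h h0, lsum_val_eq _ h (F := F) fun i hi => by
      rw [mul_val, h0 i hi, mul_zero], Finset.mul_sum]
    rfl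

theorem lsum_mul (a : Form D) {b : ι → Form D} (hb : LF b) :
    lsum b hb * a = lsum (fun i => b i * a) (hb.mul_right fun _ => a) :=
  ext_val fun E _ _ _ u x h => by
    obtain ⟨F, hF⟩ := hb h
    have h0 := hF.self_of_nhds
    rw [mul_val, lsum_val_eq hb h h0, lsum_val_eq _ h (F := F) fun i hi => by
      rw [mul_val, h0 i hi, zero_mul], Finset.sum_mul]
    rfl

theorem LF.add {a b : ι → Form D} (ha : LF a) (hb : LF b) : LF fun i => a i + b i := by
  classical
  intro E _ _ _ u x h
  obtain ⟨F, hF⟩ := ha h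
  obtain ⟨G, hG⟩ := hb h
  refine ⟨F ∪ G, ?_⟩
  filter_upwards [hF, hG] with y hy hy' i hi
  rw [Finset.mem_union, not_or] at hi
  rw [add_val, hy i hi.1, hy' i hi.2, add_zero]

theorem LF.neg {a : ι → Form D} (ha : LF a) : LF fun i => -a i := by
  intro E _ _ _ u x h
  obtain ⟨F, hF⟩ := ha h
  refine ⟨F, ?_⟩
  filter_upwards [hF] with y hy i hi
  rw [neg_val, hy i hi, neg_zero]

theorem LF.sub {a b : ι → Form D} (ha : LF a) (hb : LF b) : LF fun i => a i - b i := by
  classical
  intro E _ _ _ u x h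
  obtain ⟨F, hF⟩ := ha h
  obtain ⟨G, hG⟩ := hb h
  refine ⟨F ∪ G, ?_⟩
  filter_upwards [hF, hG] with y hy hy' i hi
  rw [Finset.mem_union, not_or] at hi
  rw [sub_val, hy i hi.1, hy' i hi.2, sub_zero]

theorem LF.smul {a : ι → Form D} (ha : LF a) (c : ι → ℝ) : LF fun i => c i • a i := by
  intro E _ _ _ u x h
  obtain ⟨F, hF⟩ := ha h
  refine ⟨F, ?_⟩
  filter_upwards [hF] with y hy i hi
  rw [smul_val, hy i hi, smul_zero]

theorem lsum_add {a b : ι → Form D} (ha : LF a) (hb : LF b) :
    lsum (fun i => a i + b i) (ha.add hb) = lsum a ha + lsum b hb :=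
  ext_val fun E _ _ _ u x h => by
    classical
    obtain ⟨F, hF⟩ := ha h
    obtain ⟨G, hG⟩ := hb h
    have h1 := hF.self_of_nhds
    have h2 := hG.self_of_nhds
    have h3 : ∀ i, i ∉ F ∪ G → (a i).val u x = 0 := fun i hi =>
      h1 i fun h' => hi (Finset.mem_union_left _ h')
    have h4 : ∀ i, i ∉ F ∪ G → (b i).val u x = 0 := fun i hi =>
      h2 i fun h' => hi (Finset.mem_union_right _ h')
    rw [add_val, lsum_val_eq ha h h3, lsum_val_eq hb h h4, lsum_val_eq _ h (F := F ∪ G)
      fun i hi => by rw [add_val, h3 i hi, h4 i hi, add_zero], ← Finset.sum_add_distrib]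
    rfl

theorem lsum_smul {a : ι → Form D} (ha : LF a) (c : ℝ) :
    lsum (fun i => c • a i) (ha.smul fun _ => c) = c • lsum a ha :=
  ext_val fun E _ _ _ u x h => by
    obtain ⟨F, hF⟩ := ha h
    have h1 := hF.self_of_nhds
    rw [smul_val, lsum_val_eq ha h h1, lsum_val_eq _ h (F := F)
      fun i hi => by rw [smul_val, h1 i hi, smul_zero], Finset.smul_sum]
    rfl

theorem lsum_congr {a b : ι → Form D} {ha : LF a} {hb : LF b} (h : ∀ i, a i = b i) :
    lsum a ha = lsum b hb := by
  have : a = b := funext h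
  subst this
  rfl

theorem LF.zero : LF fun _ : ι => (0 : Form D) := by
  intro E _ _ _ u x h
  exact ⟨∅, Eventually.of_forall fun y i _ => rfl⟩

theorem lsum_zero {a : ι → Form D} {ha : LF a} (h : ∀ i, a i = 0) : lsum a ha = 0 :=
  ext_val fun E _ _ _ u x hu => by
    rw [lsum_val_eq ha hu (F := ∅) fun i _ => by rw [h i, zero_val], Finset.sum_empty, zero_val]

theorem lsum_neg {a : ι → Form D} (ha : LF a) : lsum (fun i => -a i) ha.neg = -lsum a ha := by
  have h1 := lsum_smul ha (-1)
  rw [neg_one_smul] at h1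
  rw [← h1]
  exact lsum_congr fun i => (neg_one_smul ℝ (a i)).symm

theorem lsum_sub {a b : ι → Form D} (ha : LF a) (hb : LF b) :
    lsum (fun i => a i - b i) (ha.sub hb) = lsum a ha - lsum b hb := by
  rw [sub_eq_add_neg, ← lsum_neg hb, ← lsum_add ha hb.neg]
  exact lsum_congr fun i => sub_eq_add_neg _ _

theorem LF.sg {a : ι → Form D} (ha : LF a) : LF fun i => (a i).sg := by
  intro E _ _ _ u x h
  obtain ⟨F, hF⟩ := ha h
  refine ⟨F, ?_⟩
  filter_upwards [hF] with y hy i hi
  rw [sg_val, hy i hi, map_zero]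

theorem sg_lsum {a : ι → Form D} (ha : LF a) : (lsum a ha).sg = lsum (fun i => (a i).sg) ha.sg :=
  ext_val fun E _ _ _ u x h => by
    obtain ⟨F, hF⟩ := ha h
    have h1 := hF.self_of_nhds
    rw [sg_val, lsum_val_eq ha h h1, lsum_val_eq _ h (F := F)
      fun i hi => by rw [sg_val, h1 i hi, map_zero], map_sum]
    rfl

theorem LF.pull {f : X → Y} (hf : D.Map D' f) {a : ι → Form D'} (ha : LF a) :
    LF fun i => pull f hf (a i) := by
  intro E _ _ _ u x h
  obtain ⟨F, hF⟩ := ha (hf h)
  refine ⟨F, ?_⟩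
  filter_upwards [hF, D.open' h] with y hy hy' i hi
  rw [pull_val _ _ hy', hy i hi]

theorem pull_lsum {f : X → Y} (hf : D.Map D' f) {a : ι → Form D'} (ha : LF a) :
    pull f hf (lsum a ha) = lsum (fun i => pull f hf (a i)) (ha.pull hf) :=
  ext_val fun E _ _ _ u x h => by
    obtain ⟨F, hF⟩ := ha (hf h)
    have h1 := hF.self_of_nhds
    rw [pull_val _ _ h, lsum_val_eq ha (hf h) h1, lsum_val_eq _ h (F := F)
      fun i hi => by rw [pull_val _ _ h, h1 i hi]]
    exact Finset.sum_congr rfl fun i _ => (pull_val _ _ h).symm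

theorem LF.part {a : ι → Form D} (ha : LF a) (k : ℕ) : LF fun i => part k (a i) := by
  intro E _ _ _ u x h
  obtain ⟨F, hF⟩ := ha h
  refine ⟨F, ?_⟩
  filter_upwards [hF] with y hy i hi
  rw [part_val, hy i hi, map_zero]

theorem part_lsum {a : ι → Form D} (ha : LF a) (k : ℕ) :
    Form.part k (lsum a ha) = lsum (fun i => Form.part k (a i)) (ha.part k) :=
  ext_val fun E _ _ _ u x h => by
    obtain ⟨F, hF⟩ := ha h
    have h1 := hF.self_of_nhds
    rw [part_val, lsum_val_eq ha h h1, lsum_val_eq _ h (F := F)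
      fun i hi => by rw [part_val, h1 i hi, map_zero], map_sum]
    rfl

theorem IsDeg.lsum {a : ι → Form D} (ha : LF a) {k : ℕ} (h : ∀ i, IsDeg k (a i)) :
    IsDeg k (Form.lsum a ha) := by
  rw [IsDeg, part_lsum]
  exact lsum_congr fun i => (h i).part_eq

/-- local finiteness is inherited by families with smaller supports -/
theorem LF.of_zero {a : ι → Form D} {b : ι → Form D} (ha : LF a)
    (h : ∀ {E : Type} [NormedAddCommGroup E] [NormedSpace ℝ E] [FiniteDimensional ℝ E]
      {u : E → X} {x : E} (i : ι), D.At u x → (∀ᶠ y in 𝓝 x, (a i).val u y = 0) →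
        (b i).val u x = 0) : LF b := by
  intro E _ _ _ u x hu
  obtain ⟨F, hF⟩ := ha hu
  refine ⟨F, ?_⟩
  filter_upwards [hF.eventually_nhds, D.open' hu] with y hy hy' i hi
  exact h i hy' (by filter_upwards [hy] with z hz using hz i hi)

end Vale.Agent.P231.Fm.Form
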