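import Vale.Agent.P216.H961.LSum
import Vale.Agent.P216.V1.Prod4

/-!
# P216-V, F-O': sums of forms with lists against the coordinates of the measure

`mM v` is the coordinate `μ ↦ μ v` on `DM X ε`; for a family `c i` of forms on `DM X ε` with
`SF c G` (`c i` vanishes on the measures with support in `F` unless `i ∈ G F`) and forms `w i` with
lists, `tsum c w = ∑ i, c i * w i`.
-/

set_option linter.unusedSectionVars false
set_option linter.unusedVariables false
set_option linter.all false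

open Set Filter Topology
open scoped ContDiff

namespace Vale.Agent.P216.H961

open Vale.Agent.P231.Fm Vale.Agent.P231.WA Vale.Agent.P216.V1

noncomputable section

variable {E M N : Type} [PseudoMetricSpace E] [PseudoMetricSpace M] [PseudoMetricSpace N]
variable {π : E → N} {ρ : M → N} {A : Set M} {X : Set E} {ε : ℝ}
variable {V : Type} [NormedAddCommGroup V] [NormedSpace ℝ V] [FiniteDimensional ℝ V]
  {u : V → MP E M} {s : V} {F : Finset E}

theorem _root_.Vale.Agent.P216.V1.Supp.toM (h : Supp π ρ A X ε F u s) :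
    SuppM X ε F (fun y => (u y).1) s :=
  ⟨h.smF, h.out, h.sum, h.sm⟩

/-! ### Multiplication with forms which do not depend on the list -/

/-- forms on the measures as forms on the measures with lists -/
def pf : Form (DM X ε) →ₐ[ℝ] Form (DT π ρ A X ε) := Form.pullA Prod.fst map_fst

theorem pf_eq (w : Form (DM X ε)) :
    (pf w : Form (DT π ρ A X ε)) = Form.pull Prod.fst map_fst w := rfl

theorem pf_val (a : Form (DM X ε)) (h : Supp π ρ A X ε F u s) :
    (pf a : Form (DT π ρ A X ε)).val u s = a.val (fun y => (u y).1) s := pull_fst_val a h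

theorem pf_val' (a : Form (DM X ε)) (h : Supp π ρ A X ε F u s) {l : List M}
    (hl : ∀ x ∈ l, x ∈ (u s).2) :
    (pf a : Form (DT π ρ A X ε)).val (fun y => ((u y).1, l)) s = a.val (fun y => (u y).1) s :=
  pf_val a (h.sub hl)

theorem pf_d (a : Form (DM X ε)) : (pf a : Form (DT π ρ A X ε)).d = pf a.d :=
  (Form.pull_d Prod.fst map_fst a).symm

theorem pf_sg (a : Form (DM X ε)) : (pf a : Form (DT π ρ A X ε)).sg = pf a.sg :=
  (Form.pull_sg Prod.fst map_fst a).symm

theorem isDeg_pf {k : ℕ} {a : Form (DM X ε)} (ha : Form.IsDeg k a) :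
    Form.IsDeg k (pf a : Form (DT π ρ A X ε)) := ha.pull Prod.fst map_fst

theorem sc_mul_left (c : List M → ℝ) (v w : Form (DT π ρ A X ε)) :
    sc c (v * w) = v * sc c w :=
  ext_T fun V _ _ _ u s F h => by
    rw [sc_val _ _ h, Form.mul_val, Form.mul_val, sc_val _ _ h, mul_smul_comm]

theorem sc_mul_right (c : List M → ℝ) (v w : Form (DT π ρ A X ε)) :
    sc c (v * w) = sc c v * w :=
  ext_T fun V _ _ _ u s F h => by
    rw [sc_val _ _ h, Form.mul_val, Form.mul_val, sc_val _ _ h, smul_mul_assoc]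

theorem len_mul_left (p : ℕ) (v w : Form (DT π ρ A X ε)) : len p (v * w) = v * len p w :=
  sc_mul_left _ _ _

theorem len_mul_right (p : ℕ) (v w : Form (DT π ρ A X ε)) : len p (v * w) = len p v * w :=
  sc_mul_right _ _ _

theorem del_pf_mul (a : Form (DM X ε)) (w : Form (DT π ρ A X ε)) :
    del (pf a * w) = pf a * del w :=
  ext_T fun V _ _ _ u s F h => by
    rw [del_val _ h, Form.mul_val, del_val _ h, pf_val a h]
    have h1 : bl (fun l => (pf a * w : Form (DT π ρ A X ε)).val (fun y => ((u y).1, l)) s)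
        (u s).2 = bl (fun l => AddMonoidHom.mulLeft (a.val (fun y => (u y).1) s)
          (w.val (fun y => ((u y).1, l)) s)) (u s).2 :=
      bl_congr' fun l' hl' => by rw [Form.mul_val, pf_val' a h hl']; rfl
    rw [h1, ← map_bl (AddMonoidHom.mulLeft (a.val (fun y => (u y).1) s))]
    rfl

theorem del_mul_pf (a : Form (DM X ε)) (w : Form (DT π ρ A X ε)) :
    del (w * pf a) = del w * pf a :=
  ext_T fun V _ _ _ u s F h => by
    rw [del_val _ h, Form.mul_val, del_val _ h, pf_val a h]
    have h1 : bl (fun l => (w * pf a : Form (DT π ρ A X ε)).val (fun y => ((u y).1, l)) s)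
        (u s).2 = bl (fun l => AddMonoidHom.mulRight (a.val (fun y => (u y).1) s)
          (w.val (fun y => ((u y).1, l)) s)) (u s).2 :=
      bl_congr' fun l' hl' => by rw [Form.mul_val, pf_val' a h hl']; rfl
    rw [h1, ← map_bl (AddMonoidHom.mulRight (a.val (fun y => (u y).1) s))]
    rfl

/-! ### Sums -/

/-- `c i` vanishes on the measures with support in `F` unless `i ∈ G F` -/
structure SF {ι : Type} (c : ι → Form (DM X ε)) (G : Finset E → Finset ι) : Prop where
  out : ∀ {V : Type} [NormedAddCommGroup V] [NormedSpace ℝ V] [FiniteDimensional ℝ V]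
    {u : V → (E →₀ ℝ)} {s : V} {F : Finset E}, SuppM X ε F u s → ∀ i, i ∉ G F → (c i).val u s = 0

section SF

variable {ι κ : Type} {c : ι → Form (DM X ε)} {G : Finset E → Finset ι}

theorem SF.near (hc : SF c G) {u : V → (E →₀ ℝ)} (h : SuppM X ε F u s) :
    ∀ᶠ y in 𝓝 s, ∀ i, i ∉ G F → (c i).val u y = 0 :=
  h.near.mono fun y hy => hc.out hy

theorem SF.lf (hc : SF c G) : Form.LF c := fun ⟨F, h⟩ => ⟨G F, hc.near h⟩

theorem SF.d (hc : SF c G) : SF (fun i => (c i).d) G := by
  refine ⟨?_⟩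
  intro V _ _ _ u s F h i hi
  have hu : (DM X ε).At u s := ⟨F, h⟩
  rw [Form.d_val _ hu]
  have h1 : (c i).val u =ᶠ[𝓝 s] fun _ => 0 := by
    filter_upwards [hc.near h] with z hz using hz i hi
  rw [extd_congr h1, extd_const]

theorem SF.sg (hc : SF c G) : SF (fun i => (c i).sg) G := by
  refine ⟨?_⟩
  intro V _ _ _ u s F h i hi
  rw [Form.sg_val, hc.out h i hi, map_zero]

theorem SF.neg (hc : SF c G) : SF (fun i => -c i) G := by
  refine ⟨?_⟩
  intro V _ _ _ u s F h i hi
  rw [Form.neg_val, hc.out h i hi, neg_zero]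

theorem SF.mul {c' : κ → Form (DM X ε)} {G' : Finset E → Finset κ} (hc : SF c G)
    (hc' : SF c' G') : SF (fun p : ι × κ => c p.1 * c' p.2) (fun F => G F ×ˢ G' F) := by
  refine ⟨?_⟩
  intro V _ _ _ u s F h p hp
  rw [Form.mul_val]
  by_cases h1 : p.1 ∈ G F
  · have h2 : p.2 ∉ G' F := fun h2 => hp (Finset.mem_product.2 ⟨h1, h2⟩)
    rw [hc'.out h _ h2, mul_zero]
  · rw [hc.out h _ h1, zero_mul]

theorem SF.lfT (hc : SF c G) (w : ι → Form (DT π ρ A X ε)) : Form.LF fun i => pf (c i) * w i := by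
  rintro V _ _ _ u s ⟨F, h⟩
  refine ⟨G F, ?_⟩
  filter_upwards [h.near] with y hy i hi
  rw [Form.mul_val, pf_val _ hy, hc.out hy.toM i hi, zero_mul]

/-- `∑ i, c i * w i` -/
def tsum (hc : SF c G) (w : ι → Form (DT π ρ A X ε)) : Form (DT π ρ A X ε) :=
  Form.lsum (fun i => pf (c i) * w i) (hc.lfT w)

theorem tsum_val (hc : SF c G) (w : ι → Form (DT π ρ A X ε)) (h : Supp π ρ A X ε F u s) :
    (tsum hc w).val u s = ∑ i ∈ G F, (c i).val (fun y => (u y).1) s * (w i).val u s := by
  rw [tsum, Form.lsum_val_eq _ h.at (F := G F) fun i hi => by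
    rw [Form.mul_val, pf_val _ h, hc.out h.toM i hi, zero_mul]]
  exact Finset.sum_congr rfl fun i _ => by rw [Form.mul_val, pf_val _ h]

theorem tsum_congr (hc : SF c G) {v w : ι → Form (DT π ρ A X ε)} (h : ∀ i, v i = w i) :
    tsum hc v = tsum hc w := by rw [show v = w from funext h]

theorem tsum_add (hc : SF c G) (v w : ι → Form (DT π ρ A X ε)) :
    tsum hc (fun i => v i + w i) = tsum hc v + tsum hc w :=
  ext_T fun V _ _ _ u s F h => by
    rw [Form.add_val, tsum_val hc _ h, tsum_val hc _ h, tsum_val hc _ h, ← Finset.sum_add_distrib]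
    exact Finset.sum_congr rfl fun i _ => by rw [Form.add_val, mul_add]

theorem tsum_sub (hc : SF c G) (v w : ι → Form (DT π ρ A X ε)) :
    tsum hc (fun i => v i - w i) = tsum hc v - tsum hc w :=
  ext_T fun V _ _ _ u s F h => by
    rw [Form.sub_val, tsum_val hc _ h, tsum_val hc _ h, tsum_val hc _ h, ← Finset.sum_sub_distrib]
    exact Finset.sum_congr rfl fun i _ => by rw [Form.sub_val, mul_sub]

theorem tsum_smul (hc : SF c G) (r : ℝ) (w : ι → Form (DT π ρ A X ε)) :
    tsum hc (fun i => r • w i) = r • tsum hc w :=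
  ext_T fun V _ _ _ u s F h => by
    rw [Form.smul_val, tsum_val hc _ h, tsum_val hc _ h, Finset.smul_sum]
    exact Finset.sum_congr rfl fun i _ => by rw [Form.smul_val, mul_smul_comm]

theorem tsum_zero (hc : SF c G) : tsum hc (fun _ => (0 : Form (DT π ρ A X ε))) = 0 :=
  ext_T fun V _ _ _ u s F h => by
    rw [Form.zero_val, tsum_val hc _ h]
    exact Finset.sum_eq_zero fun i _ => by rw [Form.zero_val, mul_zero]

theorem del_tsum (hc : SF c G) (w : ι → Form (DT π ρ A X ε)) :
    del (tsum hc w) = tsum hc fun i => del (w i) :=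
  ext_T fun V _ _ _ u s F h => by
    rw [del_val _ h, tsum_val hc _ h]
    have h1 : bl (fun l => (tsum hc w).val (fun y => ((u y).1, l)) s) (u s).2 =
        bl (fun l => ∑ i ∈ G F, (pf (c i) * w i : Form (DT π ρ A X ε)).val
          (fun y => ((u y).1, l)) s) (u s).2 :=
      bl_congr' fun l' hl' => by
        rw [tsum_val hc _ (h.sub hl')]
        exact Finset.sum_congr rfl fun i _ => by rw [Form.mul_val, pf_val' _ h hl']
    rw [h1, bl_sum]
    refine Finset.sum_congr rfl fun i _ => ?_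
    rw [← del_val _ h, del_pf_mul, Form.mul_val, pf_val _ h]

theorem sc_tsum (hc : SF c G) (r : List M → ℝ) (w : ι → Form (DT π ρ A X ε)) :
    sc r (tsum hc w) = tsum hc fun i => sc r (w i) :=
  ext_T fun V _ _ _ u s F h => by
    rw [sc_val _ _ h, tsum_val hc _ h, tsum_val hc _ h, Finset.smul_sum]
    exact Finset.sum_congr rfl fun i _ => by rw [sc_val _ _ h, mul_smul_comm]

theorem len_tsum (hc : SF c G) (p : ℕ) (w : ι → Form (DT π ρ A X ε)) :
    len p (tsum hc w) = tsum hc fun i => len p (w i) := sc_tsum hc _ w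

theorem d_tsum (hc : SF c G) (w : ι → Form (DT π ρ A X ε)) :
    (tsum hc w).d = tsum hc.d w + tsum hc.sg fun i => (w i).d := by
  have h1 : (tsum hc w).d = Form.lsum (fun i => (pf (c i) * w i : Form (DT π ρ A X ε)).d)
      (Form.LF.d (hc.lfT w)) := Form.d_lsum _
  rw [h1]
  have h2 : ∀ i, (pf (c i) * w i : Form (DT π ρ A X ε)).d =
      pf (c i).d * w i + pf (c i).sg * (w i).d := fun i => by
    rw [Form.d_mul, pf_d, pf_sg]
  rw [Form.lsum_congr (hb := Form.LF.add (hc.d.lfT w) (hc.sg.lfT fun i => (w i).d)) h2, Form.lsum_add]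
  rfl

theorem isDeg_tsum (hc : SF c G) {k j m : ℕ} (hk : ∀ i, Form.IsDeg k (c i))
    {w : ι → Form (DT π ρ A X ε)} (hw : ∀ i, Form.IsDeg j (w i)) (hm : k + j = m) :
    Form.IsDeg m (tsum hc w) :=
  Form.IsDeg.lsum _ fun i => by
    subst hm
    exact (isDeg_pf (hk i)).mul (hw i)

end SF

/-! ### The coordinates -/

theorem map_mM (v : E) : (DM X ε).Map (Dif.lin ℝ) (fun μ => μ v) := fun ⟨F, h⟩ => h.sm v

variable (X ε) in
/-- the coordinate of the measure -/
def mM (v : E) : Form (DM X ε) := Form.fn (fun μ => μ v) (map_mM v)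

theorem mM_val (v : E) {u : V → (E →₀ ℝ)} (h : SuppM X ε F u s) :
    (mM X ε v).val u s = algebraMap ℝ (Lam V) (u s v) := Form.fn_val _ (map_mM v) ⟨F, h⟩

theorem mM_sg (v : E) : (mM X ε v).sg = mM X ε v := Form.sg_fn _ (map_mM v)

theorem isDeg_mM (v : E) : Form.IsDeg 0 (mM X ε v) := by
  rw [Form.IsDeg, mM, Form.part_fn, if_pos rfl]

theorem sfM : SF (mM X ε) id := by
  refine ⟨?_⟩
  intro V _ _ _ u s F h v hv
  rw [mM_val v h, h.out.self_of_nhds v hv, map_zero]

theorem sum_mM {u : V → (E →₀ ℝ)} (h : SuppM X ε F u s) :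
    ∑ v ∈ F, (mM X ε v).val u s = 1 := by
  rw [Finset.sum_congr rfl fun v _ => mM_val v h, ← map_sum, h.sum.self_of_nhds, map_one]

theorem sum_dmM {u : V → (E →₀ ℝ)} (h : SuppM X ε F u s) :
    ∑ v ∈ F, (mM X ε v).d.val u s = 0 := by
  have hu : (DM X ε).At u s := ⟨F, h⟩
  rw [Finset.sum_congr rfl fun v _ => Form.d_val _ hu]
  rw [← extd_sum F fun v _ => (mM X ε v).differentiableAt hu]
  have h1 : (fun y => ∑ v ∈ F, (mM X ε v).val u y) =ᶠ[𝓝 s] fun _ => 1 := by
    filter_upwards [h.near] with y hy using sum_mM hy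
  rw [extd_congr h1, extd_const]

/-- the coefficients `μ v * dμ v'` -/
theorem sfMd : SF (fun p : E × E => mM X ε p.1 * (mM X ε p.2).d) (fun F => F ×ˢ F) :=
  sfM.mul sfM.d

theorem isDeg_Md (p : E × E) : Form.IsDeg 1 (mM X ε p.1 * (mM X ε p.2).d) :=
  (isDeg_mM p.1).mul (isDeg_mM p.2).d

/-- **the difference formula**: `∑ μ v * dμ v' * (w v' - w v) = ∑ dμ v' * w v'` -/
theorem tsum_diff (w : E → Form (DT π ρ A X ε)) :
    tsum (sfMd (X := X) (ε := ε)) (fun p => w p.2 - w p.1) = tsum (sfM (X := X) (ε := ε)).d w :=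
  ext_T fun V _ _ _ u s F h => by
    rw [tsum_val _ _ h, tsum_val _ _ h, Finset.sum_product]
    have h1 := sum_mM h.toM
    have h2 := sum_dmM h.toM
    have e1 : ∀ v ∈ F, ∑ v' ∈ F, (mM X ε v * (mM X ε v').d).val (fun y => (u y).1) s *
        (w v' - w v).val u s = (mM X ε v).val (fun y => (u y).1) s *
          ∑ v' ∈ F, (mM X ε v').d.val (fun y => (u y).1) s * (w v').val u s := by
      intro v hv
      rw [Finset.mul_sum]
      have e2 : ∀ v' ∈ F, (mM X ε v * (mM X ε v').d).val (fun y => (u y).1) s *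
          (w v' - w v).val u s = (mM X ε v).val (fun y => (u y).1) s *
            ((mM X ε v').d.val (fun y => (u y).1) s * (w v').val u s) -
            (mM X ε v).val (fun y => (u y).1) s * ((mM X ε v').d.val (fun y => (u y).1) s *
              (w v).val u s) := by
        intro v' hv'
        rw [Form.mul_val, Form.sub_val, mul_sub, mul_assoc, mul_assoc]
      rw [Finset.sum_congr rfl e2, Finset.sum_sub_distrib, ← Finset.mul_sum, ← Finset.mul_sum,
        ← Finset.sum_mul, h2, zero_mul, mul_zero, sub_zero, Finset.mul_sum]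
    change ∑ v ∈ F, _ = ∑ v' ∈ F, _
    rw [Finset.sum_congr rfl e1, ← Finset.sum_mul, h1, one_mul]

end

end Vale.Agent.P216.H961
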