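import Vale.Agent.P216.H961.Ts
import Vale.Agent.P216.H923G.KD
import Vale.Agent.P216.V1.ZgT

/-!
# P216-V, F-O': the dual classes `V a`

For kernel data `K : KD π X Y ε δ q A` the form
`Va K a (μ, l) = ∑ v, μ v * ν a v l + (-1) ^ q * ∑ v v', μ v * dμ v' * om a v v' l`
(first sum: lists of length `q + 1`, second sum: lists of length `q`) on `DT id π Y univ δ` has
total degree `q + 1`, and `D (Va K a) = (hf K a).d` is concentrated on the lists of length `q`.
-/

set_option linter.unusedSectionVars false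
set_option linter.unusedVariables false
set_option linter.all false

open Set Filter Topology
open scoped ContDiff

namespace Vale.Agent.P216.H961

open Vale.Agent.P231.Fm Vale.Agent.P231.WA Vale.Agent.P216.V1 Vale.Agent.P216.H923G

noncomputable section

section

variable {E M N : Type} [PseudoMetricSpace E] [PseudoMetricSpace M] [PseudoMetricSpace N]
variable {π : E → N} {ρ : M → N} {A : Set M} {X : Set E} {ε : ℝ}

theorem tdg_single {p q m : ℕ} {w : Form (DT π ρ A X ε)} (hp : 1 ≤ p) (hm : p + q = m)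
    (h1 : len p w = w) (h2 : Form.IsDeg q w) : TDg m w :=
  zg_TDg.1 (Zg.TDg.single (Z := zg π ρ A X ε) hp hm h1 h2)

theorem tdg_add {m : ℕ} {v w : Form (DT π ρ A X ε)} (hv : TDg m v) (hw : TDg m w) :
    TDg m (v + w) :=
  zg_TDg.1 (Zg.TDg.add (zg_TDg.2 hv) (zg_TDg.2 hw))

theorem tdg_zero (m : ℕ) : TDg m (0 : Form (DT π ρ A X ε)) := zg_TDg.1 (Zg.TDg.zero m)

theorem len_of_len {p p' : ℕ} {w : Form (DT π ρ A X ε)} (h : len p w = w) (hp : p' ≠ p) :
    len p' w = 0 := by
  rw [← h, len_len, if_neg hp]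

theorem sc_sgn_of_len {p : ℕ} {w : Form (DT π ρ A X ε)} (h : len p w = w) :
    sc sgn w = (-1 : ℝ) ^ p • w := by
  rw [← h]
  refine ext_T fun V _ _ _ u s F hF => ?_
  rw [sc_val _ _ hF, Form.smul_val, len_val _ _ hF]
  split_ifs with h1
  · rw [sgn, h1]
  · rw [smul_zero, smul_zero]

end

variable {M E : Type} [PseudoMetricSpace M] [PseudoMetricSpace E]
variable {π : E → M} {X Y : Set E} {ε δ : ℝ} {q : ℕ} {A : Type} [Fintype A]
variable (K : KD π X Y ε δ q A) (a : A)

/-- the part on the lists of length `q + 1` -/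
def vf : Form (DT (id : M → M) π Y Set.univ δ) :=
  len (q + 1) (tsum sfM fun v => cst (K.ν a v))

/-- the part on the lists of length `q` -/
def hf : Form (DT (id : M → M) π Y Set.univ δ) :=
  len q (tsum sfMd fun p => cst (K.om a p.1 p.2))

theorem len_vf : len (q + 1) (vf K a) = vf K a := by rw [vf, len_len, if_pos rfl]

theorem len_hf : len q (hf K a) = hf K a := by rw [hf, len_len, if_pos rfl]

theorem isDeg_len {k p : ℕ} {w : Form (DT (id : M → M) π Y Set.univ δ)} (hw : Form.IsDeg k w) :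
    Form.IsDeg k (len p w) := by
  change Form.part k (len p w) = len p w
  rw [part_len, hw.part_eq]

theorem isDeg_vf : Form.IsDeg 0 (vf K a) :=
  isDeg_len (isDeg_tsum _ isDeg_mM (fun v => isDeg_cst _) rfl)

theorem isDeg_hf : Form.IsDeg 1 (hf K a) :=
  isDeg_len (isDeg_tsum _ isDeg_Md (fun v => isDeg_cst _) rfl)

variable {V : Type} [NormedAddCommGroup V] [NormedSpace ℝ V] [FiniteDimensional ℝ V]
  {u : V → MP M E} {s : V} {F : Finset M}

theorem nr_of (h : Supp (id : M → M) π Y Set.univ δ F u s) {v : M} (hv : v ∈ F) :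
    Nr π Y δ v (u s).2 :=
  ⟨h.smA, fun x hx => h.near' x hx v hv⟩

/-- the value of `vf` -/
theorem vf_val (h : Supp (id : M → M) π Y Set.univ δ F u s) :
    (vf K a).val u s = if (u s).2.length = q + 1 then
      algebraMap ℝ (Lam V) (∑ v ∈ F, (u s).1 v * K.ν a v (u s).2) else 0 := by
  rw [vf, len_val _ _ h, tsum_val _ _ h]
  split_ifs with h1
  · rw [map_sum]
    refine Finset.sum_congr rfl fun v hv => ?_
    rw [cst_val _ h, mM_val v h.toM, ← map_mul]
  · rfl

theorem del_vf : del (vf K a) = 0 := by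
  rw [vf, del_len, del_tsum]
  refine ext_T fun V _ _ _ u s F h => ?_
  rw [len_val _ _ h, Form.zero_val]
  split_ifs with h1
  · rw [tsum_val _ _ h]
    refine Finset.sum_eq_zero fun v hv => ?_
    rw [del_cst, cst_val _ h, bl_eq_dl, K.ν_coc a v _ h1 (nr_of h hv), map_zero, mul_zero]
  · rfl

theorem d_vf : (vf K a).d = len (q + 1) (tsum sfM.d fun v => cst (K.ν a v)) := by
  rw [vf, d_len, d_tsum]
  congr 1
  have h1 : (fun v => (cst (K.ν a v) : Form (DT (id : M → M) π Y Set.univ δ)).d) = fun _ => 0 :=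
    funext fun v => d_cst _
  rw [h1, tsum_zero, add_zero]

/-- **the transgression** -/
theorem del_hf : del (hf K a) = (vf K a).d := by
  rw [d_vf, hf, del_len, del_tsum, ← tsum_diff]
  refine ext_T fun V _ _ _ u s F h => ?_
  rw [len_val _ _ h, len_val _ _ h]
  split_ifs with h1
  · rw [tsum_val _ _ h, tsum_val _ _ h]
    refine Finset.sum_congr rfl fun p hp => ?_
    obtain ⟨hp1, hp2⟩ := Finset.mem_product.1 hp
    congr 1
    rw [del_cst, cst_val _ h, Form.sub_val, cst_val _ h, cst_val _ h, bl_eq_dl, ← map_sub,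
      K.om_spec a p.2 p.1 _ h1 (h.smF.2 _ hp2 _ hp1) (nr_of h hp2) (nr_of h hp1)]
  · rfl

theorem hf_zero (hq : q = 0) : hf K a = 0 := by
  refine ext_T fun V _ _ _ u s F h => ?_
  rw [hf, len_val _ _ h, Form.zero_val]
  split_ifs with h1
  · rw [tsum_val _ _ h]
    refine Finset.sum_eq_zero fun p hp => ?_
    rw [cst_val _ h, List.length_eq_zero_iff.1 (h1.trans hq), K.om_nil, map_zero, mul_zero]
  · rfl

/-- **the dual class** -/
def Va : Form (DT (id : M → M) π Y Set.univ δ) := vf K a + (-1 : ℝ) ^ q • hf K a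

theorem tdg_vf : TDg (q + 1) (vf K a) :=
  tdg_single (p := q + 1) (q := 0) (by omega) rfl (len_vf K a) (isDeg_vf K a)

theorem tdg_hf : TDg (q + 1) (hf K a) := by
  rcases Nat.eq_zero_or_pos q with hq | hq
  · rw [hf_zero K a hq]
    exact tdg_zero _
  · exact tdg_single (p := q) (q := 1) hq rfl (len_hf K a) (isDeg_hf K a)

/-- **the total degree of `Va`** -/
theorem tdg_Va : TDg (q + 1) (Va K a) := by
  refine tdg_add (tdg_vf K a) ?_
  rcases neg_one_pow_eq_or ℝ q with hq | hq
  · rw [hq, one_smul]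
    exact tdg_hf K a
  · rw [hq, neg_one_smul]
    exact zg_TDg.1 (Zg.TDg.neg (zg_TDg.2 (tdg_hf K a)))

/-- **the differential of `Va`** -/
theorem D_Va : D (Va K a) = (hf K a).d := by
  have h1 : sc sgn (vf K a).d = (-1 : ℝ) ^ (q + 1) • (vf K a).d :=
    sc_sgn_of_len (by rw [← d_len, len_vf])
  have h2 : sc sgn (hf K a).d = (-1 : ℝ) ^ q • (hf K a).d :=
    sc_sgn_of_len (by rw [← d_len, len_hf])
  have h3 : (-1 : ℝ) ^ q * (-1 : ℝ) ^ q = 1 := by rw [← mul_pow]; simp
  rw [Va, D_add, D_smul, D, D, del_vf, h1, h2, del_hf, zero_add, smul_add, smul_smul, h3, one_smul,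
    pow_succ, mul_neg_one, neg_smul]
  abel

theorem len_D_Va : len q (D (Va K a)) = D (Va K a) := by
  rw [D_Va, ← d_len, len_hf]

theorem len_Va_of_lt {p : ℕ} (hp : q + 1 < p) : len p (Va K a) = 0 := (tdg_Va K a).top p hp

/-- `D (Va K a)` has no list of length `> q` -/
theorem len_D_Va_of_lt {p : ℕ} (hp : q < p) : len p (D (Va K a)) = 0 :=
  len_of_len (len_D_Va K a) (by omega)

/-- the top part of `Va` -/
theorem len_succ_Va : len (q + 1) (Va K a) = vf K a := by
  rw [Va, len_add, len_smul, len_vf, len_of_len (len_hf K a) (by omega), smul_zero, add_zero]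

end

end Vale.Agent.P216.H961
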